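import Vale.Agent.P011Z.Basic

/-!
The compactness criterion: integrality, determinants, values of tensors.
-/

open Matrix Topology

namespace Vale.Agent.P011Z.CocA

variable {n : Type} [Fintype n] [DecidableEq n]

theorem exists_int {x : ℚ} (h : ∀ q : Nat.Primes, ‖(x : ℚ_[(q : ℕ)])‖ ≤ 1) : ∃ z : ℤ, x = z := by
  refine ⟨x.num, ((Rat.den_eq_one_iff x).1 ?_).symm⟩
  by_contra h1
  obtain ⟨p, hp, hd⟩ := Nat.exists_prime_and_dvd h1
  have : Fact p.Prime := ⟨hp⟩
  have h2 := PadicInt.isUnit_iff.1 (PadicInt.isUnit_den x (h ⟨p, hp⟩))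
  rw [PadicInt.norm_natCast_eq_one_iff] at h2
  exact (hp.coprime_iff_not_dvd.1 h2) hd

theorem eq_zero_of_small {x : ℚ} (h : ∀ q : Nat.Primes, ‖(x : ℚ_[(q : ℕ)])‖ ≤ 1)
    (h' : |(x : ℝ)| < 1) : x = 0 := by
  obtain ⟨z, rfl⟩ := exists_int h
  have : |z| < 1 := by exact_mod_cast h'
  rw [Int.abs_lt_one_iff.1 this, Int.cast_zero]

theorem exists_den {α : Type} [Finite α] (x : α → ℚ) :
    ∃ D : ℕ, 0 < D ∧ ∀ a, ∃ z : ℤ, D * x a = z := by
  classical
  have := Fintype.ofFinite α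
  refine ⟨∏ a, (x a).den, Finset.prod_pos fun a _ => (x a).den_pos, fun a => ?_⟩
  refine ⟨(∏ b ∈ Finset.univ.erase a, (x b).den : ℕ) * (x a).num, ?_⟩
  rw [← Finset.prod_erase_mul _ _ (Finset.mem_univ a), Nat.cast_mul, mul_assoc, Rat.den_mul_eq_num,
    Int.cast_mul, Int.cast_natCast]

theorem finite_bd (D : ℕ) (hD : 0 < D) (C : ℝ) :
    {x : ℚ | (∃ z : ℤ, D * x = z) ∧ |(x : ℝ)| ≤ C}.Finite := by
  refine ((Set.finite_Icc (-⌈D * C⌉) ⌈D * C⌉).image fun z : ℤ => (z : ℚ) / D).subset ?_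
  rintro x ⟨⟨z, hz⟩, hx⟩
  have hD' : (D : ℚ) ≠ 0 := by exact_mod_cast hD.ne'
  refine ⟨z, Set.mem_Icc.2 (abs_le.1 ?_), by
    beta_reduce
    rw [← hz, mul_div_cancel_left₀ _ hD']⟩
  have h1 : (z : ℝ) = D * x := by exact_mod_cast hz.symm
  have h2 : ((|z| : ℤ) : ℝ) ≤ D * C := by
    rw [Int.cast_abs, h1, abs_mul, Nat.abs_cast]
    exact mul_le_mul_of_nonneg_left hx (Nat.cast_nonneg _)
  exact_mod_cast h2.trans (Int.le_ceil _)

section ultra

variable {F : Type} [NormedField F] [IsUltrametricDist F]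

theorem norm_det_le {M : Matrix n n F} (h : ∀ i j, ‖M i j‖ ≤ 1) : ‖M.det‖ ≤ 1 := by
  rw [det_apply']
  refine IsUltrametricDist.norm_sum_le_of_forall_le_of_nonneg zero_le_one fun σ _ => ?_
  rw [norm_mul, norm_prod]
  exact mul_le_one₀ (IsUltrametricDist.norm_intCast_le_one _ _)
    (Finset.prod_nonneg fun _ _ => norm_nonneg _)
    (Finset.prod_le_one (fun _ _ => norm_nonneg _) fun _ _ => h _ _)

omit [DecidableEq n] in
theorem norm_mulVec_le {M : Matrix n n F} (h : ∀ i j, ‖M i j‖ ≤ 1) {v : n → F}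
    (hv : ∀ i, ‖v i‖ ≤ 1) (i : n) : ‖(M *ᵥ v) i‖ ≤ 1 :=
  IsUltrametricDist.norm_sum_le_of_forall_le_of_nonneg zero_le_one fun j _ => by
    rw [norm_mul]
    exact mul_le_one₀ (h i j) (norm_nonneg _) (hv j)

omit [Fintype n] [DecidableEq n] in
theorem norm_comb_le {ι : Type} [Fintype ι] {b : ι → Matrix n n F} (h : ∀ k i j, ‖b k i j‖ ≤ 1)
    {v : ι → F} (hv : ∀ k, ‖v k‖ ≤ 1) (i j : n) : ‖(∑ k, v k • b k) i j‖ ≤ 1 := by
  rw [Matrix.sum_apply]
  refine IsUltrametricDist.norm_sum_le_of_forall_le_of_nonneg zero_le_one fun k _ => ?_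
  rw [Matrix.smul_apply, smul_eq_mul, norm_mul]
  exact mul_le_one₀ (hv k) (norm_nonneg _) (h k i j)

omit [DecidableEq n] in
theorem norm_ev_le {a : ℕ} (t : (Fin a → n) → ℚ) {D : F} (hD : ∀ j, ‖D * (t j : F)‖ ≤ 1)
    {x : Fin a → n → F} (hx : ∀ r i, ‖x r i‖ ≤ 1) : ‖D * ev t F x‖ ≤ 1 := by
  rw [ev_apply, Finset.mul_sum]
  refine IsUltrametricDist.norm_sum_le_of_forall_le_of_nonneg zero_le_one fun j _ => ?_
  rw [← mul_assoc, norm_mul, norm_prod]
  exact mul_le_one₀ (hD j) (Finset.prod_nonneg fun _ _ => norm_nonneg _)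
    (Finset.prod_le_one (fun _ _ => norm_nonneg _) fun _ _ => hx _ _)

end ultra

omit [DecidableEq n] in
theorem abs_ev_le {a : ℕ} (t : (Fin a → n) → ℚ) {x : Fin a → n → ℝ} {c : ℝ}
    (hx : ∀ r, ‖x r‖ ≤ c) : |ev t ℝ x| ≤ (∑ j, |(t j : ℝ)|) * c ^ a := by
  rw [ev_apply, Finset.sum_mul]
  refine (Finset.abs_sum_le_sum_abs _ _).trans (Finset.sum_le_sum fun j _ => ?_)
  rw [abs_mul, Finset.abs_prod]
  refine mul_le_mul_of_nonneg_left ?_ (abs_nonneg _)
  refine (Finset.prod_le_prod (fun _ _ => abs_nonneg _) fun r _ =>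
    (norm_le_pi_norm (x r) (j r)).trans (hx r)).trans_eq ?_
  simp

omit [DecidableEq n] in
theorem ev_cast (F : Type) [Field F] [CharZero F] {a : ℕ} (t : (Fin a → n) → ℚ)
    (x : Fin a → n → ℚ) : ((ev t ℚ x : ℚ) : F) = ev t F fun r i => (x r i : F) := by
  simp [ev_apply]

omit [DecidableEq n] in
theorem cast_mulVec (F : Type) [Field F] [CharZero F] (M : Matrix n n ℚ) (v : n → ℚ) :
    (fun i => (((M *ᵥ v) i : ℚ) : F)) = M.map ((↑) : ℚ → F) *ᵥ fun i => (v i : F) :=
  funext fun i => (Rat.castHom F).map_mulVec M v i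

theorem cast_det (F : Type) [Field F] [CharZero F] (M : Matrix n n ℚ) :
    ((M.det : ℚ) : F) = (M.map ((↑) : ℚ → F)).det := (Rat.castHom F).map_det M

theorem bd_inv {q : Nat.Primes} {h : Matrix n n ℚ} (hd : |h.det| = 1) (hh : Bd q 1 h) :
    Bd q 1 h⁻¹ := by
  intro i j
  rw [inv_def, Matrix.smul_apply, adjugate_apply, smul_eq_mul, Rat.cast_mul, norm_mul, cast_det]
  refine mul_le_one₀ ?_ (norm_nonneg _) (norm_det_le fun k l => ?_)
  · rcases (abs_eq zero_le_one).1 hd with e | e <;> simp [e]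
  · rw [map_apply, updateRow_apply]
    split_ifs
    · rw [Pi.single_apply]
      split_ifs <;> simp
    · exact hh k l

/-- A matrix which is conjugate to an integral one at every prime and to a small one at infinity
is nilpotent. -/
theorem exists_nil (n : Type) [Fintype n] [DecidableEq n] : ∃ ε : ℝ, 0 < ε ∧ ∀ X : Matrix n n ℚ,
    (∀ q : Nat.Primes, ∃ g g' : Matrix n n ℚ_[(q : ℕ)], g' * g = 1 ∧
      ∀ i j, ‖(g * X.map ((↑) : ℚ → ℚ_[(q : ℕ)]) * g') i j‖ ≤ 1) →
    (∃ g g' : Matrix n n ℝ, g' * g = 1 ∧ ∀ i j, |(g * X.map ((↑) : ℚ → ℝ) * g') i j| ≤ ε) →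
    IsNilpotent X := by
  have h1 : ∀ᶠ Y : n → n → ℝ in 𝓝 0, ∀ k : Fin (Fintype.card n + 1),
      |(scalar n ((k : ℕ) : ℝ) - Matrix.of Y).det - ((k : ℕ) : ℝ) ^ Fintype.card n| < 1 := by
    refine Filter.eventually_all.2 fun k => ?_
    have hc : Continuous fun Y : n → n → ℝ =>
        |(scalar n ((k : ℕ) : ℝ) - Matrix.of Y).det - ((k : ℕ) : ℝ) ^ Fintype.card n| :=
      ((continuous_const.sub continuous_id).matrix_det.sub continuous_const).abs
    refine hc.continuousAt.eventually_lt continuousAt_const ?_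
    have : (Matrix.of (0 : n → n → ℝ)) = 0 := rfl
    rw [this, sub_zero, scalar_apply, det_diagonal]
    simp
  obtain ⟨ε, hε, h2⟩ := Metric.eventually_nhds_iff.1 h1
  have key : ∀ (F : Type) [Field F] [CharZero F] (X : Matrix n n ℚ) (g g' : Matrix n n F),
      g' * g = 1 → ∀ k : ℕ, (((scalar n (k : ℚ) - X).det : ℚ) : F) =
        (scalar n (k : F) - g * X.map ((↑) : ℚ → F) * g').det := by
    intro F _ _ X g g' hg k
    have e1 : (scalar n (k : ℚ) - X).map ((↑) : ℚ → F) = scalar n (k : F) - X.map (↑) := by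
      ext i j
      simp only [scalar_apply, map_apply, Matrix.sub_apply, diagonal_apply]
      split_ifs <;> simp
    have e2 : scalar n (k : F) - g * X.map ((↑) : ℚ → F) * g' =
        g * (scalar n (k : F) - X.map (↑)) * g' := by
      rw [mul_sub, sub_mul, ← (scalar_commute (k : F) (fun _ => Commute.all _ _) g).eq,
        Matrix.mul_assoc (scalar n _), mul_eq_one_comm.1 hg, Matrix.mul_one]
    rw [cast_det, e1, e2, det_mul, det_mul, mul_comm g.det, mul_assoc, mul_comm g.det, ← det_mul,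
      hg, det_one, mul_one]
  refine ⟨ε / 2, half_pos hε, fun X hq ⟨g, g', hg, hX⟩ => ⟨Fintype.card n, ?_⟩⟩
  have h3 : X.charpoly = Polynomial.X ^ Fintype.card n := by
    refine Polynomial.eq_of_natDegree_lt_card_of_eval_eq _ _
      (f := fun k : Fin (Fintype.card n + 1) => ((k : ℕ) : ℚ))
      (fun a b h => Fin.ext (Nat.cast_injective (R := ℚ) h)) (fun k => ?_) (by simp)
    rw [eval_charpoly, Polynomial.eval_pow, Polynomial.eval_X, ← sub_eq_zero]
    refine eq_zero_of_small (fun q => ?_) ?_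
    · obtain ⟨g, g', hg, hX⟩ := hq q
      rw [Rat.cast_sub, key _ X g g' hg, sub_eq_add_neg]
      refine (IsUltrametricDist.norm_add_le_max _ _).trans (max_le (norm_det_le fun i j => ?_) ?_)
      · rw [Matrix.sub_apply, sub_eq_add_neg]
        refine (IsUltrametricDist.norm_add_le_max _ _).trans (max_le ?_ (by
          rw [norm_neg]; exact hX i j))
        rw [scalar_apply, diagonal_apply]
        split_ifs
        · exact IsUltrametricDist.norm_natCast_le_one _ _
        · simp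
      · rw [norm_neg, Rat.cast_pow, norm_pow, Rat.cast_natCast]
        exact pow_le_one₀ (norm_nonneg _) (IsUltrametricDist.norm_natCast_le_one _ _)
    · rw [Rat.cast_sub, key _ X g g' hg, Rat.cast_pow, Rat.cast_natCast]
      refine h2 (y := fun i j => (g * X.map ((↑) : ℚ → ℝ) * g') i j) ?_ k
      rw [dist_zero_right]
      refine lt_of_le_of_lt ((pi_norm_le_iff_of_nonneg (half_pos hε).le).2 fun i =>
        (pi_norm_le_iff_of_nonneg (half_pos hε).le).2 fun j => hX i j) (half_lt_self hε)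
  have h4 := aeval_self_charpoly X
  rwa [h3, map_pow, Polynomial.aeval_X] at h4

omit [Fintype n] [DecidableEq n] in
/-- A multilinear form which is nonzero on a span is nonzero on the generators. -/
theorem exists_of_span {a : ℕ} (f : MultilinearMap ℚ (fun _ : Fin a => n → ℚ) ℚ)
    {A : Set (n → ℚ)} {x : Fin a → n → ℚ} (hx : ∀ r, x r ∈ Submodule.span ℚ A) (h : f x ≠ 0) :
    ∃ y : Fin a → n → ℚ, (∀ r, y r ∈ A) ∧ f y ≠ 0 := by
  choose m c g hg using fun r => Submodule.mem_span_set'.1 (hx r)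
  by_contra h1
  push Not at h1
  apply h
  rw [← funext hg, f.map_sum fun r i => c r i • (g r i : n → ℚ)]
  refine Finset.sum_eq_zero fun s _ => ?_
  rw [f.map_smul_univ, h1 _ fun r => (g r (s r)).2, smul_zero]

omit [DecidableEq n] in
/-- An increasing chain of subspaces stops early. -/
theorem exists_stable (V : ℕ → Submodule ℚ (n → ℚ)) (h : ∀ k, V k ≤ V (k + 1)) :
    ∃ k ≤ Fintype.card n, V (k + 1) = V k := by
  by_contra h1
  push Not at h1
  have h2 : ∀ k ≤ Fintype.card n + 1, k ≤ Module.finrank ℚ (V k) := by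
    intro k hk
    induction k with
    | zero => exact Nat.zero_le _
    | succ k ih =>
      exact Nat.succ_le_of_lt ((ih (by omega)).trans_lt (Submodule.finrank_lt_finrank_of_lt
        (lt_of_le_of_ne (h k) (h1 k (by omega)).symm)))
  have h3 := (h2 _ le_rfl).trans (Submodule.finrank_le _)
  rw [Module.finrank_fintype_fun_eq_card] at h3
  omega

end Vale.Agent.P011Z.CocA
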