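import Vale.Agent.P011Z.Coc.A
import Vale.Agent.P011Z.Red

/-!
The compactness criterion: reduction in the Lie algebra and in the standard representation.
-/

open Matrix Topology

namespace Vale.Agent.P011Z.CocA

variable {n : Type} [Fintype n] [DecidableEq n] {S : Sys n}

/-- a linear combination of rational matrices over `F` -/
def cmb {ι : Type} [Fintype ι] (b : ι → Matrix n n ℚ) {F : Type} [Field F] (v : ι → F) :
    Matrix n n F := ∑ k, v k • (b k).map ((↑) : ℚ → F)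

section comb

variable {ι : Type} [Fintype ι] {b : ι → Matrix n n ℚ} {F : Type} [Field F]

omit [Fintype n] [DecidableEq n] in
theorem cmb_cast [CharZero F] (v : ι → ℚ) :
    (∑ k, v k • b k).map ((↑) : ℚ → F) = cmb b fun k => (v k : F) := by
  ext i j
  simp [cmb, Matrix.sum_apply]

omit [DecidableEq n] in
theorem cmb_conj {g g' : Matrix n n F} {a : Matrix ι ι F}
    (h : ∀ j, g * (b j).map ((↑) : ℚ → F) * g' = cmb b fun i => a i j) (v : ι → F) :
    g * cmb b v * g' = cmb b (a *ᵥ v) := by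
  simp only [cmb, Finset.mul_sum, Finset.sum_mul, mul_smul_comm, smul_mul_assoc] at h ⊢
  simp only [h, Finset.smul_sum, smul_smul, mulVec, dotProduct, Finset.sum_smul]
  rw [Finset.sum_comm]
  exact Finset.sum_congr rfl fun i _ => Finset.sum_congr rfl fun j _ => by rw [mul_comm]

/-- The matrix of the adjoint action. -/
theorem exists_ad [CharZero F] [DecidableEq ι] (hb : Submodule.span ℚ (Set.range b) = S.lie ℚ)
    (hd : (Matrix.of fun i j => (b i * b j).trace).det ≠ 0) (g : S.mon F) :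
    ∃ a : Matrix ι ι F, a.det ^ 2 = 1 ∧ ∀ v : ι → F,
      (g : Matrix n n F) * cmb b v * ((g⁻¹ : S.mon F) : Matrix n n F) = cmb b (a *ᵥ v) := by
  have h0 : ∀ j, b j ∈ S.lie ℚ := fun j => hb ▸ Submodule.subset_span ⟨j, rfl⟩
  have h1 : S.lie F ≤ Submodule.span F (Set.range fun k => (b k).map ((↑) : ℚ → F)) := by
    rw [Sys.lie_eq_span (Rat.castHom F), Submodule.span_le]
    rintro _ ⟨X, hX, rfl⟩
    rw [← hb, SetLike.mem_coe, Submodule.mem_span_range_iff_exists_fun] at hX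
    obtain ⟨v, rfl⟩ := hX
    exact (Submodule.mem_span_range_iff_exists_fun F).2 ⟨_, (cmb_cast v).symm⟩
  choose c hc using fun j => (Submodule.mem_span_range_iff_exists_fun F).1
    (h1 (Sys.conj_mem g (Sys.map_mem_lie (Rat.castHom F) (h0 j))))
  have h2 : ∀ j, (g : Matrix n n F) * (b j).map ((↑) : ℚ → F) * ((g⁻¹ : S.mon F) : Matrix n n F) =
      cmb b fun i => (Matrix.of fun i j => c j i) i j := fun j => (hc j).symm
  refine ⟨_, ?_, cmb_conj h2⟩
  set G : Matrix ι ι F := (Matrix.of fun i j => (b i * b j).trace).map ((↑) : ℚ → F) with hG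
  have h3 : ∀ i j, G i j = ((b i).map ((↑) : ℚ → F) * (b j).map ((↑) : ℚ → F)).trace := by
    intro i j
    simp [hG, trace, mul_apply]
  have h4 : (Matrix.of fun i j => c j i)ᵀ * G * (Matrix.of fun i j => c j i) = G := by
    ext i j
    have h5 := congrArg trace (congrArg₂ (· * ·) (h2 i) (h2 j))
    rw [Matrix.mul_assoc, ← Matrix.mul_assoc _ (_ * _), ← Matrix.mul_assoc _ (g : Matrix n n F),
      Sys.coe_inv_mul, Matrix.one_mul, ← Matrix.mul_assoc, trace_mul_comm, ← Matrix.mul_assoc,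
      ← Matrix.mul_assoc, Sys.coe_inv_mul, Matrix.one_mul, ← h3] at h5
    rw [h5]
    simp only [cmb, Finset.mul_sum, Finset.sum_mul, mul_smul_comm, smul_mul_assoc, trace_sum,
      trace_smul, ← h3, mul_apply, transpose_apply, smul_eq_mul]
    exact Finset.sum_congr rfl fun k _ => Finset.sum_congr rfl fun l _ => by ring
  have h5 := congrArg det h4
  rw [det_mul, det_mul, det_transpose] at h5
  have h6 : G.det ≠ 0 := by
    rw [hG, ← cast_det]
    exact_mod_cast hd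
  refine mul_right_cancel₀ h6 ?_
  linear_combination h5

end comb

/-- An integral basis of the rational Lie algebra. -/
theorem exists_basis (hT : S.TrNd ℚ) : ∃ (m : ℕ) (b : Fin m → Matrix n n ℚ),
    Submodule.span ℚ (Set.range b) = S.lie ℚ ∧ (∀ v : Fin m → ℚ, ∑ k, v k • b k = 0 → v = 0) ∧
    (Matrix.of fun i j => (b i * b j).trace).det ≠ 0 ∧ ∀ q k, Bd q 1 (b k) := by
  let B := Module.finBasis ℚ (S.lie ℚ)
  obtain ⟨D, hD, h⟩ := exists_den fun p : Fin _ × n × n => (B p.1 : Matrix n n ℚ) p.2.1 p.2.2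
  have hD' : (D : ℚ) ≠ 0 := by exact_mod_cast hD.ne'
  have h1 : Submodule.span ℚ (Set.range fun k => (D : ℚ) • (B k : Matrix n n ℚ)) = S.lie ℚ := by
    refine le_antisymm (Submodule.span_le.2 ?_) fun X hX => ?_
    · rintro _ ⟨k, rfl⟩
      exact Submodule.smul_mem _ _ (B k).2
    · refine (Submodule.mem_span_range_iff_exists_fun ℚ).2 ⟨fun k => B.repr ⟨X, hX⟩ k / D, ?_⟩
      have h2 := congrArg Subtype.val (B.sum_repr ⟨X, hX⟩)
      simp only [AddSubmonoidClass.coe_finsetSum, SetLike.val_smul] at h2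
      simpa only [smul_smul, div_mul_cancel₀ _ hD'] using h2
  have h2 : ∀ v : Fin _ → ℚ, ∑ k, v k • (D : ℚ) • (B k : Matrix n n ℚ) = 0 → v = 0 := by
    intro v hv
    have h3 : ∑ k, (v k * D) • B k = 0 := Subtype.ext (by
      simpa only [AddSubmonoidClass.coe_finsetSum, SetLike.val_smul, smul_smul,
        ZeroMemClass.coe_zero] using hv)
    funext k
    exact (mul_eq_zero.1 (Fintype.linearIndependent_iff.1 B.linearIndependent _ h3 k)).resolve_right
      hD'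
  refine ⟨_, fun k => (D : ℚ) • (B k : Matrix n n ℚ), h1, h2, fun h0 => ?_, fun q k i j => ?_⟩
  · obtain ⟨v, hv, h3⟩ := exists_mulVec_eq_zero_iff.2 h0
    refine hv (h2 v (hT _ (h1.le ((Submodule.mem_span_range_iff_exists_fun ℚ).2 ⟨v, rfl⟩))
      fun Y hY => ?_))
    rw [← h1, Submodule.mem_span_range_iff_exists_fun] at hY
    obtain ⟨w, rfl⟩ := hY
    rw [trace_mul_comm, Finset.sum_mul, trace_sum]
    refine Finset.sum_eq_zero fun k _ => ?_
    have h4 := congrFun h3 k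
    simp only [mulVec, dotProduct, of_apply, Pi.zero_apply] at h4
    rw [smul_mul_assoc, trace_smul, Finset.mul_sum, trace_sum]
    simp only [mul_smul_comm (v _), trace_smul (v _), smul_eq_mul, mul_comm (v _)]
    rw [h4, mul_zero]
  · obtain ⟨z, hz⟩ := h (k, i, j)
    have e : ((D : ℚ) • (B k : Matrix n n ℚ)) i j = z := hz
    beta_reduce
    rw [e, Rat.cast_intCast]
    exact Padic.norm_int_le_one z

omit [Fintype n] [DecidableEq n] in
theorem abs_cmb_le {ι : Type} [Fintype ι] (b : ι → Matrix n n ℚ) {v : ι → ℝ} {c : ℝ}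
    (hv : ∀ k, |v k| ≤ c) (i j : n) : |cmb b v i j| ≤ c * ∑ k, |(b k i j : ℝ)| := by
  rw [cmb, Matrix.sum_apply, Finset.mul_sum]
  refine (Finset.abs_sum_le_sum_abs _ _).trans (Finset.sum_le_sum fun k _ => ?_)
  rw [Matrix.smul_apply, smul_eq_mul, abs_mul]
  exact mul_le_mul_of_nonneg_right (hv k) (abs_nonneg _)

/-- The conjugates of the rational matrix are integral, and bounded at infinity. -/
def Red (T : Finset Nat.Primes) (u : S.GT T) (C : ℝ) (X : Matrix n n ℚ) : Prop :=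
  (∀ q ∉ T, Bd q 1 X) ∧
  (∀ (q : T) i j, ‖((u.2 q : Matrix n n ℚ_[(q.1 : ℕ)]) * X.map ((↑) : ℚ → ℚ_[(q.1 : ℕ)]) *
    (((u.2 q)⁻¹ : S.mon _) : Matrix n n ℚ_[(q.1 : ℕ)])) i j‖ ≤ 1) ∧
  ∀ i j, |((u.1 : Matrix n n ℝ) * X.map ((↑) : ℚ → ℝ) * ((u.1⁻¹ : S.mon ℝ) : Matrix n n ℝ)) i j| ≤ C

/-- Reduction in the Lie algebra. -/
theorem exists_span (hN : S.NoNil) (hT : S.TrNd ℚ) (T : Finset Nat.Primes) : ∃ C : ℝ, 0 ≤ C ∧
    ∀ u : S.GT T, S.lie ℚ ≤ Submodule.span ℚ {X | Red T u C X} := by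
  obtain ⟨m, b, h1, h2, h3, h4⟩ := exists_basis hT
  obtain ⟨ε, hε, hn⟩ := exists_nil n
  set K : ℝ := ∑ i, ∑ j, ∑ k, |(b k i j : ℝ)| with hK
  have hK0 : 0 ≤ K := by positivity
  have hK1 : ∀ i j, ∑ k, |(b k i j : ℝ)| ≤ K := fun i j =>
    (Finset.single_le_sum (f := fun j => ∑ k, |(b k i j : ℝ)|) (fun _ _ => by positivity)
      (Finset.mem_univ j)).trans (Finset.single_le_sum
        (f := fun i => ∑ j, ∑ k, |(b k i j : ℝ)|) (fun _ _ => by positivity) (Finset.mem_univ i))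
  obtain ⟨C, hC⟩ := reduce (Fin m) T (ε := ε / (K + 1)) (by positivity)
  refine ⟨max C 0 * K, by positivity, fun u => ?_⟩
  obtain ⟨a, a1, a2⟩ := exists_ad h1 h3 u.1
  choose aq q1 q2 using fun q : T => exists_ad h1 h3 (u.2 q)
  have key : ∀ (v : Fin m → ℚ) (c : ℝ), 0 ≤ c →
      (∀ q : Nat.Primes, q ∉ T → ∀ i, ‖(v i : ℚ_[(q : ℕ)])‖ ≤ 1) →
      (∀ (q : T) i, ‖(aq q *ᵥ fun j => (v j : ℚ_[(q.1 : ℕ)])) i‖ ≤ 1) →
      (∀ i, |(a *ᵥ fun j => (v j : ℝ)) i| ≤ c) → Red T u (c * K) (∑ k, v k • b k) := by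
    intro v c hc v1 v2 v3
    refine ⟨fun q hq i j => ?_, fun q i j => ?_, fun i j => ?_⟩
    · have := norm_comb_le (b := fun k => (b k).map ((↑) : ℚ → ℚ_[(q : ℕ)])) (h4 q) (v1 q hq) i j
      rwa [← cmb, ← cmb_cast] at this
    · rw [cmb_cast, q2]
      exact norm_comb_le (b := fun k => (b k).map ((↑) : ℚ → ℚ_[(q.1 : ℕ)])) (h4 q) (v2 q) i j
    · rw [cmb_cast, a2]
      exact (abs_cmb_le b v3 i j).trans (mul_le_mul_of_nonneg_left (hK1 i j) hc)
  obtain ⟨h, d1, d2, d3, d4⟩ := hC a aq ((pow_eq_one_iff_of_nonneg (abs_nonneg _)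
    two_ne_zero).1 (by rw [sq_abs, a1])) (fun q => by
      have := congrArg norm (q1 q)
      rw [norm_pow, norm_one] at this
      exact (pow_eq_one_iff_of_nonneg (norm_nonneg _) two_ne_zero).1 this) fun v hv v1 v2 => by
    by_contra hlt
    obtain ⟨r1, r2, r3⟩ := key v _ (norm_nonneg _) v1 v2 fun i =>
      norm_le_pi_norm (a *ᵥ fun j => (v j : ℝ)) i
    refine hv (h2 v (hN _ (h1.le ((Submodule.mem_span_range_iff_exists_fun ℚ).2 ⟨v, rfl⟩))
      (hn _ (fun q => ?_) ⟨_, _, Sys.coe_inv_mul u.1, fun i j => (r3 i j).trans ?_⟩)))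
    · by_cases hq : q ∈ T
      · exact ⟨_, _, Sys.coe_inv_mul (u.2 ⟨q, hq⟩), r2 ⟨q, hq⟩⟩
      · exact ⟨1, 1, one_mul 1, fun i j => by simpa using r1 q hq i j⟩
    · have h5 := (lt_div_iff₀ (by positivity)).1 (not_le.1 hlt)
      nlinarith [norm_nonneg (a *ᵥ fun j => (v j : ℝ))]
  have hd : IsUnit h.det := by
    refine Ne.isUnit fun e => ?_
    rw [e, abs_zero] at d1
    exact zero_ne_one d1
  rw [← h1, Submodule.span_le]
  rintro _ ⟨j, rfl⟩
  have e : b j = ∑ l, h⁻¹ l j • ∑ k, h k l • b k := by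
    simp only [Finset.smul_sum, smul_smul]
    rw [Finset.sum_comm]
    simp only [← Finset.sum_smul, mul_comm (h⁻¹ _ j), ← mul_apply, mul_nonsing_inv h hd, one_apply,
      ite_smul, one_smul, zero_smul, Finset.sum_ite_eq', Finset.mem_univ, if_true]
  rw [e]
  refine Submodule.sum_mem _ fun l _ => Submodule.smul_mem _ _ (Submodule.subset_span ?_)
  exact key (fun k => h k l) _ (le_max_right _ _) (fun q hq i => d2 q hq i l)
    (fun q i => d3 q i l) fun i => (d4 i l).trans (le_max_left _ _)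

/-- The rational vector lies in the lattice of `u` and has size at most `c`. -/
def Lat (T : Finset Nat.Primes) (u : S.GT T) (c : ℝ) (v : n → ℚ) : Prop :=
  (∀ q : Nat.Primes, q ∉ T → ∀ i, ‖(v i : ℚ_[(q : ℕ)])‖ ≤ 1) ∧
  (∀ (q : T) i, ‖((u.2 q : Matrix n n ℚ_[(q.1 : ℕ)]) *ᵥ fun j => (v j : ℚ_[(q.1 : ℕ)])) i‖ ≤ 1) ∧
  ‖(u.1 : Matrix n n ℝ) *ᵥ fun j => (v j : ℝ)‖ ≤ c

theorem conj_mulVec {F : Type} [Field F] [CharZero F] (g : S.mon F) (X : Matrix n n ℚ)
    (v : n → ℚ) : ((g : Matrix n n F) *ᵥ fun j => (((X *ᵥ v) j : ℚ) : F)) =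
      ((g : Matrix n n F) * X.map ((↑) : ℚ → F) * ((g⁻¹ : S.mon F) : Matrix n n F)) *ᵥ
        ((g : Matrix n n F) *ᵥ fun j => (v j : F)) := by
  rw [cast_mulVec, mulVec_mulVec, mulVec_mulVec, Matrix.mul_assoc _ _ (g : Matrix n n F),
    Sys.coe_inv_mul, Matrix.mul_one]

theorem Red.lat {T : Finset Nat.Primes} {u : S.GT T} {C c : ℝ} (hC : 0 ≤ C) {X : Matrix n n ℚ}
    (hX : Red T u C X) {v : n → ℚ} (hv : Lat T u c v) :
    Lat T u (Fintype.card n * C * c) (X *ᵥ v) := by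
  have hc : 0 ≤ c := (norm_nonneg _).trans hv.2.2
  refine ⟨fun q hq i => ?_, fun q i => ?_, ?_⟩
  · rw [congrFun (cast_mulVec ℚ_[(q : ℕ)] X v) i]
    exact norm_mulVec_le (hX.1 q hq) (hv.1 q hq) i
  · rw [conj_mulVec]
    exact norm_mulVec_le (hX.2.1 q) (hv.2.1 q) i
  · rw [conj_mulVec]
    refine (pi_norm_le_iff_of_nonneg (by positivity)).2 fun i => (norm_sum_le _ _).trans ?_
    refine (Finset.sum_le_sum (g := fun _ => C * c) fun j _ => ?_).trans_eq
      (by simp [mul_assoc])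
    rw [norm_mul]
    exact mul_le_mul (hX.2.2 i j) ((norm_le_pi_norm _ j).trans hv.2.2) (norm_nonneg _) hC

variable (S) in
/-- The values of the tensors on lattice vectors. -/
theorem exists_val : ∃ D : ℕ, 0 < D ∧ ∃ K : ℝ, 0 ≤ K ∧ ∀ (T : Finset Nat.Primes) (u : S.GT T)
    (c : ℝ), ∀ τ ∈ S.T, ∀ x : Fin τ.1 → n → ℚ, (∀ r, Lat T u c (x r)) →
      (∃ z : ℤ, D * ev τ.2 ℚ x = z) ∧ |(ev τ.2 ℚ x : ℝ)| ≤ K * c ^ τ.1 := by
  have := S.fin.to_subtype
  obtain ⟨D, hD, h⟩ := exists_den fun p : Σ τ : S.T, Fin τ.1.1 → n => p.1.1.2 p.2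
  obtain ⟨K, hK⟩ := (S.fin.image fun τ => ∑ j, |(τ.2 j : ℝ)|).bddAbove
  refine ⟨D, hD, max K 0, le_max_right _ _, fun T u c τ hτ x hx => ⟨exists_int fun q => ?_, ?_⟩⟩
  · have h1 : ∀ j, ‖(D : ℚ_[(q : ℕ)]) * (τ.2 j : ℚ_[(q : ℕ)])‖ ≤ 1 := fun j => by
      obtain ⟨z, hz⟩ := h ⟨⟨τ, hτ⟩, j⟩
      have e : (D : ℚ_[(q : ℕ)]) * (τ.2 j : ℚ_[(q : ℕ)]) = z := by exact_mod_cast hz
      rw [e]
      exact Padic.norm_int_le_one z
    rw [Rat.cast_mul, Rat.cast_natCast, ev_cast]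
    by_cases hq : q ∈ T
    · rw [← (u.2 ⟨q, hq⟩).2 τ hτ]
      exact norm_ev_le _ h1 fun r => (hx r).2.1 ⟨q, hq⟩
    · exact norm_ev_le _ h1 fun r => (hx r).1 q hq
  · rw [ev_cast, ← u.1.2 τ hτ]
    refine (abs_ev_le _ fun r => (hx r).2.2).trans (mul_le_mul_of_nonneg_right
      ((hK ⟨τ, hτ, rfl⟩).trans (le_max_left _ _)) ?_)
    rcases Nat.eq_zero_or_pos τ.1 with h0 | h0
    · rw [h0, pow_zero]; exact zero_le_one
    · exact pow_nonneg ((norm_nonneg _).trans (hx ⟨0, h0⟩).2.2) _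

/-- There are no short vectors. -/
theorem exists_min (hN : S.NoNil) (hS : S.Stable) (hT : S.TrNd ℚ) (T : Finset Nat.Primes) :
    ∃ ε : ℝ, 0 < ε ∧ ∀ (u : S.GT T) (v : n → ℚ), Lat T u ε v → v = 0 := by
  obtain ⟨C, hC, h1⟩ := exists_span hN hT T
  obtain ⟨D, hD, K, hK, h2⟩ := exists_val S
  set E : ℝ := Fintype.card n * C + 1 with hE
  have hE1 : 1 ≤ E := le_add_of_nonneg_left (by positivity)
  refine ⟨(D * K + 1)⁻¹ / E ^ Fintype.card n, by positivity, fun u v hv => ?_⟩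
  set ε : ℝ := (D * K + 1)⁻¹ / E ^ Fintype.card n with hε
  have hε0 : 0 < ε := by positivity
  have mono : ∀ {c c' : ℝ} {w : n → ℚ}, c ≤ c' → Lat T u c w → Lat T u c' w :=
    fun h hw => ⟨hw.1, hw.2.1, hw.2.2.trans h⟩
  obtain ⟨k, hk, h3⟩ := exists_stable (fun k => Submodule.span ℚ {w | Lat T u (E ^ k * ε) w})
    fun k => Submodule.span_mono fun w hw => mono (mul_le_mul_of_nonneg_right
      (pow_le_pow_right₀ hE1 (Nat.le_succ k)) hε0.le) hw
  by_contra h0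
  obtain ⟨τ, hτ, hpos, x, hx, h4⟩ := hS (Submodule.span ℚ {w | Lat T u (E ^ k * ε) w})
    (fun e => h0 ((Submodule.eq_bot_iff _).1 e v (Submodule.subset_span
      (mono (le_mul_of_one_le_left hε0.le (one_le_pow₀ hE1)) hv)))) fun X hX w hw => by
    have h5 := h1 u hX
    clear hX
    induction h5 using Submodule.span_induction with
    | mem X hX =>
      refine (Submodule.span_le (p := (Submodule.span ℚ _).comap X.mulVecLin)).2 ?_ hw
      intro y hy
      refine h3.le (Submodule.subset_span (mono ?_ (Red.lat hC hX hy)))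
      rw [pow_succ' E, mul_assoc E]
      exact mul_le_mul_of_nonneg_right (by linarith) (by positivity)
    | zero => rw [zero_mulVec]; exact zero_mem _
    | add X Y _ _ a b => rw [add_mulVec]; exact add_mem a b
    | smul c X _ a => rw [smul_mulVec]; exact Submodule.smul_mem _ c a
  obtain ⟨y, hy, h5⟩ := exists_of_span _ hx h4
  have h6 : E ^ k * ε ≤ (D * K + 1)⁻¹ := by
    refine (mul_le_mul_of_nonneg_right (pow_le_pow_right₀ hE1 hk) hε0.le).trans_eq ?_
    rw [hε, mul_div_cancel₀ _ (by positivity)]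
  obtain ⟨⟨z, hz⟩, h7⟩ := h2 T u _ τ hτ y fun r => mono h6 (hy r)
  have h8 : (0 : ℝ) ≤ D * K := by positivity
  have h9 : (D * K + 1 : ℝ)⁻¹ ^ τ.1 ≤ (D * K + 1)⁻¹ :=
    pow_le_of_le_one (by positivity) (inv_le_one_of_one_le₀ (by linarith)) hpos.ne'
  have h10 : ((|z| : ℤ) : ℝ) < 1 := by
    have e : (z : ℝ) = D * (ev τ.2 ℚ y : ℚ) := by exact_mod_cast hz.symm
    rw [Int.cast_abs, e, abs_mul, Nat.abs_cast]
    refine (mul_le_mul_of_nonneg_left (h7.trans (mul_le_mul_of_nonneg_left h9 hK))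
      (Nat.cast_nonneg _)).trans_lt ?_
    rw [← mul_assoc, ← div_eq_mul_inv, div_lt_one (by linarith)]
    linarith
  have h11 : |z| < 1 := by exact_mod_cast h10
  rw [Int.abs_lt_one_iff.1 h11, Int.cast_zero, mul_eq_zero] at hz
  exact hz.elim (by exact_mod_cast hD.ne') h5

end Vale.Agent.P011Z.CocA
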